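import Vale.Agent.P232.Gap.Q1

/-!
# P232: the isoperimetric profile and the minimisers of the cubic three-torus
-/

open MeasureTheory Set
open scoped Real

noncomputable section

namespace Vale.Agent.Results.P232.CubicTorusProfile

open Vale.Agent.P232 Vale.Agent.P232.Rigid

theorem result : ∀ V : ℝ, 0 < V → V < 1 →
    profile V = ENNReal.ofReal
        (min (min ((36 * π) ^ ((1 : ℝ) / 3) * min V (1 - V) ^ ((2 : ℝ) / 3))
          (2 * Real.sqrt (π * min V (1 - V)))) 2) ∧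
      (∃ E : Set R3, IsTorusSet E ∧ torusVolume E = V ∧ perimeter E = profile V) ∧
      ∀ E : Set R3, IsTorusSet E → torusVolume E = V → perimeter E = profile V →
        ∃ (S : Finset (Fin 3)) (c : R3) (R : ℝ), S.Nonempty ∧ 0 < R ∧ R < 1 / 2 ∧
          ((∀ᵐ x : R3, x ∈ E ↔ x ∈ shapeSet S c R) ∨ ∀ᵐ x : R3, x ∈ E ↔ x ∉ shapeSet S c R) :=
  fun _ h0 h1 => ⟨(Gap.q1 ⟨h0, h1⟩).1, (Gap.q1 ⟨h0, h1⟩).2.2, (Gap.q1 ⟨h0, h1⟩).2.1⟩

end Vale.Agent.Results.P232.CubicTorusProfile
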